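import Vale.Agent.P070ZM.Mod
import Vale.Agent.P070ZA.Op
import Vale.Agent.P070ZB.Car

/-!
# The model of the commutation relations
-/

set_option linter.all false

namespace Vale.Agent.P070Z

open Vale.Agent.P129B Vale.Agent.P129B.M98

universe v

variable {N : Type v} [ZM N] {R K : Type*} [Nm K R] [Field R] [LinearOrder R]
  [IsStrictOrderedRing R] [Field K] [Algebra R K] [KA R K] [StarRing K] [CX R K]
  [Coded N R] [RF N R] [Coded N K] [KF N R K]

namespace M98

section Gen

variable {V : Type*} [AddCommGroup V] [Module K V] [Coded N V] [Tot N V] [DefAdd N V]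
  [DefSMul N K V] {h : PreH N K V} {T T' : V → V} {C C' : R}

/-- the extension to the completion as an operator -/
noncomputable def liftOp (a : Adj h h T T' C) (b : Adj h h T' T C') : Op N K (Cm h) :=
  Subtype.mk (Cm.lift a) ⟨Cm.defF_lift a, ⟨C, Cm.nm_lift_le a⟩, Cm.lift b, Cm.defF_lift b,
    fun x y => (ip_lift a b x y).symm⟩

theorem liftOp_io (a : Adj h h T T' C) (b : Adj h h T' T C') (x : V) :
    liftOp a b (Cm.io h x) = Cm.io h (T x) := Cm.lift_io a x

theorem ev_liftOp (a : Adj h h T T' C) (b : Adj h h T' T C') (f : Cm h) (w : V) :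
    (liftOp a b f).ev w = f.ev (T' w) := rfl

theorem nm_liftOp (a : Adj h h T T' C) (b : Adj h h T' T C') (f : Cm h) :
    nm (liftOp a b f) ≤ C * nm f := Cm.nm_lift_le a f

theorem star_liftOp (a : Adj h h T T' C) (b : Adj h h T' T C') :
    star (liftOp a b) = liftOp b a := (eq_star fun x y => (ip_lift a b x y).symm).symm

theorem op_ext_io {S U : Op N K (Cm h)} (e : ∀ x, S (Cm.io h x) = U (Cm.io h x)) : S = U :=
  Op.ext (Cm.ext_io S.lip U.lip e)

/-- Weak convergence to zero can be tested on the dense subspace. -/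
theorem weak_zero {S : NN N → Op N K (Cm h)} {D : R} (hD : 0 ≤ D)
    (hS : ∀ k x, nm (S k x) ≤ D * nm x)
    (h0 : ∀ x y, ∃ n, ∀ k, n ≤ k → ip (Cm.io h y) (S k (Cm.io h x)) = 0) (z w : Cm h) {ε : R}
    (hε : 0 < ε) : ∃ n, ∀ k, n ≤ k → nm (ip w (S k z)) ≤ ε := by
  have hz := nm_nonneg z
  have hw := nm_nonneg w
  have h1 : 0 < D * (nm z + nm w + 1) + 1 := by positivity
  obtain ⟨δ, d0, d1, d2⟩ : ∃ δ : R, 0 < δ ∧ δ ≤ 1 ∧ δ * (D * (nm z + nm w + 1) + 1) ≤ ε :=
    ⟨min 1 (ε / (D * (nm z + nm w + 1) + 1)), lt_min one_pos (div_pos hε h1), min_le_left _ _,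
      (le_div_iff₀ h1).1 (min_le_right _ _)⟩
  obtain ⟨x, hx⟩ := z.dense d0
  obtain ⟨y, hy⟩ := w.dense d0
  obtain ⟨n, hn⟩ := h0 x y
  refine ⟨n, fun k hk => ?_⟩
  have e : ip w (S k z) = ip (w - Cm.io h y) (S k z) + ip (Cm.io h y) (S k (z - Cm.io h x)) := by
    rw [map_sub, ip_sub_left, ip_sub_right, hn k hk]; ring
  have h2 := (nm_ip_le (w - Cm.io h y) (S k z)).trans
    (mul_le_mul hy (hS k z) (nm_nonneg _) d0.le)
  have h3 : nm (Cm.io h y) ≤ nm w + 1 := by
    have := nm_le_add_sub (Cm.io h y) w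
    rw [nm_sub_rev] at this
    linarith
  have h4 := (nm_ip_le (Cm.io h y) (S k (z - Cm.io h x))).trans (mul_le_mul h3
    ((hS k _).trans (mul_le_mul_of_nonneg_left hx hD)) (nm_nonneg _) (by linarith))
  rw [e]
  refine (nm_add_le _ _).trans ?_
  nlinarith

end Gen

variable (N R K) in
/-- the Hilbert space of the model -/
abbrev HM : Type _ := Cm (pre N R K)

theorem adj_sh' (r : R) : Adj (pre N R K) (pre N R K) (sh (-r)) (sh r) (1 : R) := by
  have := adj_sh (N := N) (K := K) (-r)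
  rwa [neg_neg] at this

/-- the shift -/
noncomputable def uu (r : R) : Op N K (HM N R K) := liftOp (adj_sh r) (adj_sh' r)

/-- the generators -/
noncomputable def aa (i : NN N) : Op N K (HM N R K) := liftOp (adj_A i) (adj_B i)

theorem uu_io (r : R) (x : VM N R K) : uu r (Cm.io _ x) = Cm.io _ (sh r x) := liftOp_io _ _ x

theorem aa_io (i : NN N) (x : VM N R K) : aa i (Cm.io _ x) = Cm.io _ (opA i x) := liftOp_io _ _ x

theorem saa_io (i : NN N) (x : VM N R K) : (star (aa i) : Op N K (HM N R K)) (Cm.io _ x) =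
    Cm.io _ (opB i x) := by
  rw [aa, star_liftOp]; exact liftOp_io _ _ x

theorem defF_uu : DefF N (uu : R → Op N K (HM N R K)) :=
  defF_op (Cm.defF_cm (DefF.congr (f := fun p : (R × HM N R K) × VM N R K =>
    p.1.2.ev (sh (-p.1.1) p.2)) (by fun_prop) fun _ _ => rfl))

theorem defF_aa : DefF N (aa : NN N → Op N K (HM N R K)) :=
  defF_op (Cm.defF_cm (DefF.congr (f := fun p : (NN N × HM N R K) × VM N R K =>
    p.1.2.ev (opB p.1.1 p.2)) (by fun_prop) fun _ _ => rfl))

theorem rel : P070ZB.Rel (aa : NN N → Op N K (HM N R K)) (uu 1) where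
  sq i := op_ext_io fun x => by
    rw [Op.mul_apply, aa_io, aa_io, A_sq, map_zero, Op.zero_apply]
  car i := op_ext_io fun x => by
    rw [Op.add_apply, Op.mul_apply, Op.mul_apply, saa_io, aa_io, aa_io, saa_io, ← map_add, A_car,
      Op.one_apply]
  comm i j h := op_ext_io fun x => by simp only [Op.mul_apply, aa_io, A_comm h]
  comm' i j h := op_ext_io fun x => by simp only [Op.mul_apply, aa_io, saa_io, AB_comm h]
  U_comm i := op_ext_io fun x => by simp only [Op.mul_apply, aa_io, uu_io, shA_comm]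
  U_comm' i := op_ext_io fun x => by simp only [Op.mul_apply, saa_io, uu_io, shB_comm]

theorem uu_mul (r s : R) : (uu r * uu s : Op N K (HM N R K)) = uu (r + s) :=
  op_ext_io fun x => by simp only [Op.mul_apply, uu_io, sh_sh]

theorem uu_zero : (uu 0 : Op N K (HM N R K)) = 1 :=
  op_ext_io fun x => by rw [uu_io, sh_zero, Op.one_apply]

theorem star_uu (r : R) : star (uu r : Op N K (HM N R K)) = uu (-r) :=
  op_ext_io fun x => by rw [uu_io, uu, star_liftOp, liftOp_io]

theorem nm_uu (r : R) (z : HM N R K) : nm (uu r z) ≤ nm z :=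
  (nm_liftOp _ _ z).trans_eq (one_mul _)

theorem nm_aa (i : NN N) (z : HM N R K) : nm (aa i z) ≤ nm z :=
  (nm_liftOp _ _ z).trans_eq (one_mul _)

/-- The shift has no eigenvector. -/
theorem uu_eigen {z : HM N R K} {μ : K} (e : uu 1 z = μ • z) : z = 0 := by
  by_contra hz
  have h0 := nm_pos_iff.2 hz
  have h1 : 1 ≤ nm μ := by
    have h2 := nm_uu (-1) (uu 1 z)
    rw [← Op.mul_apply, uu_mul, neg_add_cancel, uu_zero, Op.one_apply, e, nm_smul] at h2
    exact le_of_mul_le_mul_right (by rwa [one_mul]) h0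
  have hu := defF_uu (N := N) (R := R) (K := K)
  have h2 : ∀ k : NN N, ∃ ν : K, 1 ≤ nm ν ∧ uu (rc R k) z = ν • z := fun k =>
    NN.ind (P := fun k => ∃ ν : K, 1 ≤ nm ν ∧ uu (rc R k) z = ν • z) (by fun_prop)
      ⟨1, KA.nm_one.ge, by rw [rc_zero, uu_zero, one_smul, Op.one_apply]⟩
      (fun k ⟨ν, h3, h4⟩ => ⟨μ * ν, by
        rw [KA.nm_mul]; exact one_le_mul_of_one_le_of_one_le h1 h3, by
        rw [rc_succ, ← uu_mul, Op.mul_apply, e, map_smul, h4, smul_smul]⟩) k
  obtain ⟨n, hn⟩ := weak_zero (S := fun k : NN N => (uu (rc R k) : Op N K (HM N R K)))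
    zero_le_one (fun k x => (nm_uu _ x).trans_eq (one_mul _).symm) (fun x y => by
      simp only [uu_io, ip_io]; exact ev_sh x y) z z (half_pos (pow_pos h0 2))
  obtain ⟨ν, h3, h4⟩ := h2 n
  have h5 := hn n le_rfl
  rw [h4, ip_smul_right, KA.nm_mul, nm_ip_self] at h5
  nlinarith [pow_pos h0 2]

theorem nm_hf : nm (hf R K) ≤ 1 := by
  rw [KA.nm_ofR_of_nonneg (by positivity)]; norm_num

theorem aa_weak (z w : HM N R K) {ε : R} (hε : 0 < ε) :
    ∃ n, ∀ k, n ≤ k → nm (ip w (aa k z) - ip w (hf R K • uu 1 z)) ≤ ε := by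
  simp only [← ip_sub_right]
  refine weak_zero (S := fun k : NN N => (aa k - hf R K • uu 1 : Op N K (HM N R K))) (D := 2)
    zero_le_two (fun k x => ?_) (fun x y => (ev_A x y).imp fun n hn k hk => ?_) z w hε
  · rw [Op.sub_apply, Op.smul_apply]
    refine (nm_sub_le _ _).trans ?_
    rw [nm_smul]
    have := mul_le_mul (nm_hf (R := R) (K := K)) (nm_uu 1 x) (nm_nonneg _) zero_le_one
    linarith [nm_aa k x]
  · rw [Op.sub_apply, Op.smul_apply, aa_io, uu_io, ← map_smul, ← map_sub, ip_io]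
    exact hn k hk

/-- No nonzero kernel invariant under the shift compresses all generators to scalars. -/
theorem noV (k : Op N K (HM N R K)) (hk : uu 1 * k = k * uu 1)
    (h : ∀ i, ∃ c : K, ∀ z w, k z = 0 → k w = 0 → ip w (aa i z) = c * ip w z) (z : HM N R K)
    (hz : k z = 0) : z = 0 := by
  by_contra h0
  have hzz : ip z z ≠ 0 := fun e => h0 (ip_self_eq_zero.1 e)
  have hU : k (uu 1 z) = 0 := by rw [← Op.mul_apply, ← hk, Op.mul_apply, hz, map_zero]
  have h2 : ∀ w, k w = 0 →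
      ip w (hf R K • uu 1 z) * ip z z = ip z (hf R K • uu 1 z) * ip w z := fun w hw => by
    refine eq_of_small (nm (ip z z) + nm (ip w z)) fun ε hε _ => ?_
    obtain ⟨n, hn⟩ := aa_weak z w hε
    obtain ⟨m, hm⟩ := aa_weak z z hε
    obtain ⟨c, hc⟩ := h (max n m)
    have e : ip w (hf R K • uu 1 z) * ip z z - ip z (hf R K • uu 1 z) * ip w z =
        (ip z (aa (max n m) z) - ip z (hf R K • uu 1 z)) * ip w z -
          (ip w (aa (max n m) z) - ip w (hf R K • uu 1 z)) * ip z z := by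
      rw [hc z z hz hz, hc z w hz hw]; ring
    rw [e]
    refine (nm_sub_le _ _).trans ?_
    rw [KA.nm_mul, KA.nm_mul]
    have h3 := mul_le_mul_of_nonneg_right (hn _ (le_max_left n m)) (nm_nonneg (ip z z))
    have h4 := mul_le_mul_of_nonneg_right (hm _ (le_max_right n m)) (nm_nonneg (ip w z))
    linarith
  obtain ⟨s, hs⟩ : ∃ s : K, s * ip z z = ip z (hf R K • uu 1 z) := ⟨_, div_mul_cancel₀ _ hzz⟩
  have h3 : hf R K • uu 1 z - s • z = 0 := by
    have h4 := h2 (hf R K • uu 1 z - s • z) (by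
      rw [map_sub, map_smul, map_smul, hU, hz, smul_zero, smul_zero, sub_zero])
    refine ip_self_eq_zero.1 (mul_right_cancel₀ hzz ?_)
    rw [ip_sub_right, sub_mul, h4, ip_smul_right s, ← hs]
    ring
  refine h0 (uu_eigen (μ := 2 * s) ?_)
  rw [mul_smul, ← sub_eq_zero.1 h3, smul_smul, two_hf, one_smul]

theorem exists_unit : ∃ x : HM N R K, nm x = 1 := by
  obtain ⟨x, hx⟩ := FV.exists_ip_eq_one (N := N) (K := K) (I := R × BS N)
  refine ⟨Cm.io _ x, (sq_eq_sq₀ (nm_nonneg _) zero_le_one).1 ?_⟩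
  rw [← re_ip_self, ip_io, one_pow]
  exact (congrArg KA.re hx).trans KA.re_one

end M98

/-- **The model**: a unitary `U` and commuting matrix units `a i` on a nonzero Hilbert space such
that no nonzero kernel of an operator commuting with `U` compresses all `a i` to scalars. -/
theorem exists_model : ∃ (U : Op N K (M98.HM N R K)) (a : NN N → Op N K (M98.HM N R K)),
    (∃ x : M98.HM N R K, nm x = 1) ∧ DefF N a ∧ P070ZB.Rel a U ∧ star U * U = 1 ∧
    U * star U = 1 ∧ ∀ k : Op N K (M98.HM N R K), U * k = k * U →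
      (∀ i, ∃ c : K, ∀ z w, k z = 0 → k w = 0 → ip w (a i z) = c * ip w z) →
      ∀ z, k z = 0 → z = 0 :=
  ⟨M98.uu 1, M98.aa, M98.exists_unit, M98.defF_aa, M98.rel,
    by rw [M98.star_uu, M98.uu_mul, neg_add_cancel, M98.uu_zero],
    by rw [M98.star_uu, M98.uu_mul, add_neg_cancel, M98.uu_zero], M98.noV⟩

end Vale.Agent.P070Z
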