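import Vale.Agent.P129BZ.Scal
import Vale.Agent.P129B.Real
import Vale.Agent.P129BO.St
import Vale.Agent.P129BI.FP

/-!
# Sums of finitely supported functions of a model
-/

set_option linter.all false

namespace Vale.Agent.P129B

universe v

variable {N : Type v} [ZM N] {I : Type*} [Coded N I] [Tot N I] {α : Type*} [Coded N α]

namespace M98

section A

variable {K : Type*} [Field K] [Coded N K] [Tot N K] [DefAdd N K] [DefMul N K]

/-- the first `n` terms of `e` cover the support of `f` -/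
def Cov (f : I → K) (n : NN N) (e : NN N → I) : Prop := ∀ p, f p ≠ 0 → ∃ i, i < n ∧ e i = p

@[fun_prop] theorem defF_cov {f : α → I → K} {n : α → NN N} {e : α → NN N → I}
    (hf : DefF N (fun p : α × I => f p.1 p.2)) (hn : DefF N n)
    (he : DefF N (fun p : α × NN N => e p.1 p.2)) : DefF N (fun a => Cov (f a) (n a) (e a)) := by
  unfold Cov; fun_prop

variable (N) in
/-- finite support -/
def FinS (f : I → K) : Prop := ∃ (n : NN N) (e : NN N → I), Intl N e ∧ Cov f n e

@[fun_prop] theorem defF_finS {f : α → I → K} (hf : DefF N (fun p : α × I => f p.1 p.2)) :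
    DefF N (fun a => FinS N (f a)) := by
  unfold FinS; fun_prop

open Classical in
/-- the terms of the sum along a list: repetitions are not counted -/
noncomputable def tm (f : I → K) (e : NN N → I) (i : NN N) : K :=
  if ∃ j, j < i ∧ e j = e i then 0 else f (e i)

@[fun_prop] theorem defF_tm {f : α → I → K} {e : α → NN N → I} {n : α → NN N}
    (hf : DefF N (fun p : α × I => f p.1 p.2))
    (he : DefF N (fun p : α × NN N => e p.1 p.2)) (hn : DefF N n) :
    DefF N (fun a => tm (f a) (e a) (n a)) := by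
  unfold tm; fun_prop

open Classical in
theorem isum_tm_aux {f : I → K} (hf : DefF N f) {e e' : NN N → I} (he : DefF N e)
    (he' : DefF N e') {n' : NN N} (h' : Cov f n' e') (i : NN N) :
    isum (fun j => if (¬ ∃ k, k < i ∧ e k = e i) ∧ (¬ ∃ k, k < j ∧ e' k = e' j) ∧ e i = e' j
      then f (e i) else 0) n' = tm f e i := by
  by_cases h0 : f (e i) = 0
  · rw [isum_eq_zero (by fun_prop) fun j _ => by simp only [h0, ite_self]]
    simp only [tm, h0, ite_self]
  by_cases h1 : ∃ k, k < i ∧ e k = e i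
  · rw [isum_eq_zero (by fun_prop) fun j _ => if_neg fun h => h.1 h1, tm, if_pos h1]
  obtain ⟨j, hj, hj'⟩ := h' _ h0
  obtain ⟨j₀, h2, h3⟩ := NN.exists_min (N := N) (P := fun j => e' j = e i) (by fun_prop) ⟨j, hj'⟩
  have h4 : j₀ < n' := lt_of_le_of_lt (not_lt.1 fun h => h3 j h hj') hj
  rw [isum_single (j := j₀) (by fun_prop) h4 fun k _ hk => if_neg ?_, tm, if_neg h1,
    if_pos ⟨h1, fun ⟨k, h5, h6⟩ => h3 k h5 (h6.trans h2), h2.symm⟩]
  rintro ⟨-, h5, h6⟩
  rcases lt_or_gt_of_ne hk with h7 | h7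
  · exact h3 k h7 h6.symm
  · exact h5 ⟨j₀, h7, h2.trans h6⟩

open Classical in
/-- The sum does not depend on the list. -/
theorem isum_tm_eq {f : I → K} (hf : DefF N f) {e e' : NN N → I} (he : DefF N e)
    (he' : DefF N e') {n n' : NN N} (h : Cov f n e) (h' : Cov f n' e') :
    isum (tm f e) n = isum (tm f e') n' := by
  rw [← funext (isum_tm_aux hf he he' h'), ← funext (isum_tm_aux hf he' he h),
    isum_comm (by fun_prop)]
  refine isum_congr (by fun_prop) (by fun_prop) fun j _ =>
    isum_congr (by fun_prop) (by fun_prop) fun i _ => ?_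
  by_cases h1 : e i = e' j
  · rw [h1]
    exact if_congr ⟨fun h => ⟨h.2.1, h.1, rfl⟩, fun h => ⟨h.2.1, h.1, rfl⟩⟩ rfl rfl
  · rw [if_neg fun h => h1 h.2.2, if_neg fun h => h1 h.2.2.symm]

variable (N) in
open Classical in
/-- the sum of a finitely supported function -/
noncomputable def fs (f : I → K) : K :=
  if h : FinS N f then isum (tm f h.choose_spec.choose) h.choose else 0

theorem fs_eq {f : I → K} (hf : DefF N f) {e : NN N → I} (he : DefF N e) {n : NN N}
    (h : Cov f n e) : fs N f = isum (tm f e) n := by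
  have h1 : FinS N f := ⟨n, e, he.toIntl, h⟩
  rw [fs, dif_pos h1]
  have h2 := h1.choose_spec.choose_spec
  exact isum_tm_eq hf (intl_fun.1 h2.1) he h2.2 h

@[fun_prop] theorem defF_fs {f : α → I → K} (hf : DefF N (fun p : α × I => f p.1 p.2)) :
    DefF N (fun a => fs N (f a)) := by
  refine defF_of_rel (R := fun a (s : K) => (∃ (n : NN N) (e : NN N → I), Intl N e ∧
    Cov (f a) n e ∧ isum (tm (f a) e) n = s) ∨ (¬ FinS N (f a) ∧ s = 0))
    (fun _ _ => inferInstance) (by fun_prop) fun a s _ _ => ⟨?_, ?_⟩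
  · rintro (⟨n, e, he, h, rfl⟩ | ⟨h, rfl⟩)
    · exact fs_eq (by fun_prop) (intl_fun.1 he) h
    · rw [fs, dif_neg h]
  · rintro rfl
    by_cases h : FinS N (f a)
    · obtain ⟨n, e, he, h⟩ := h
      exact Or.inl ⟨n, e, he, h, (fs_eq (by fun_prop) (intl_fun.1 he) h).symm⟩
    · exact Or.inr ⟨h, by rw [fs, dif_neg h]⟩

theorem Cov.mono {f g : I → K} {n : NN N} {e : NN N → I} (h : Cov f n e)
    (hg : ∀ p, g p ≠ 0 → f p ≠ 0) : Cov g n e := fun p hp => h p (hg p hp)

theorem FinS.mono {f g : I → K} (h : FinS N f) (hg : ∀ p, g p ≠ 0 → f p ≠ 0) : FinS N g := by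
  obtain ⟨n, e, he, h⟩ := h
  exact ⟨n, e, he, h.mono hg⟩

open Classical in
/-- Two finitely supported functions have a common list. -/
theorem FinS.common {f g : I → K} (hf : FinS N f) (hg : FinS N g) :
    ∃ (n : NN N) (e : NN N → I), DefF N e ∧ Cov f n e ∧ Cov g n e := by
  obtain ⟨n, e, he, h⟩ := hf
  obtain ⟨m, d, hd, h'⟩ := hg
  refine ⟨n + m, fun i => if i < n then e i else d (i - n), by fun_prop, fun p hp => ?_,
    fun p hp => ?_⟩
  · obtain ⟨i, h1, h2⟩ := h p hp
    exact ⟨i, h1.trans_le le_self_add, (if_pos h1).trans h2⟩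
  · obtain ⟨i, h1, h2⟩ := h' p hp
    refine ⟨n + i, add_lt_add_right h1 n, (if_neg (not_lt.2 le_self_add)).trans ?_⟩
    rw [add_tsub_cancel_left, h2]

theorem ne_or_ne {x y : K} (h : x + y ≠ 0) : x ≠ 0 ∨ y ≠ 0 := by
  by_contra hc
  push Not at hc
  exact h (by rw [hc.1, hc.2, add_zero])

theorem FinS.add {f g : I → K} (hf : FinS N f) (hg : FinS N g) : FinS N (fun p => f p + g p) := by
  obtain ⟨n, e, he, h1, h2⟩ := hf.common hg
  exact ⟨n, e, he.toIntl, fun p hp => (ne_or_ne hp).elim (h1 p) (h2 p)⟩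

theorem FinS.comp {f : I → K} (h : FinS N f) {σ τ : I → I} (hτ : DefF N τ)
    (h1 : ∀ p, τ (σ p) = p) : FinS N (fun p => f (σ p)) := by
  obtain ⟨n, e, he, h⟩ := h
  refine ⟨n, fun i => τ (e i), DefF.toIntl (by fun_prop), fun p hp => ?_⟩
  obtain ⟨i, h2, h3⟩ := h _ hp
  exact ⟨i, h2, by rw [← h1 p, ← h3]⟩

theorem fs_add {f g : I → K} (df : DefF N f) (dg : DefF N g) (hf : FinS N f) (hg : FinS N g) :
    fs N (fun p => f p + g p) = fs N f + fs N g := by
  obtain ⟨n, e, he, h1, h2⟩ := hf.common hg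
  rw [fs_eq df he h1, fs_eq dg he h2, fs_eq (f := fun p => f p + g p) (by fun_prop) he
    fun p hp => (ne_or_ne hp).elim (h1 p) (h2 p), ← isum_add (by fun_prop) (by fun_prop)]
  refine isum_congr (by fun_prop) (by fun_prop) fun i _ => ?_
  simp only [tm]
  split_ifs
  · rw [add_zero]
  · rfl

/-- Definable additive maps commute with sums. -/
theorem map_fs {φ : K → K} (hφ : DefF N φ) (h0 : φ 0 = 0) (hadd : ∀ x y, φ (x + y) = φ x + φ y)
    {f : I → K} (df : DefF N f) (hf : FinS N f) : φ (fs N f) = fs N (fun p => φ (f p)) := by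
  obtain ⟨n, e, he, h⟩ := hf
  rw [fs_eq df (intl_fun.1 he) h, fs_eq (f := fun p => φ (f p)) (by fun_prop) (intl_fun.1 he)
    (h.mono fun p hp e => hp (by rw [e, h0])), map_isum' hφ h0 hadd (by fun_prop)]
  refine isum_congr (by fun_prop) (by fun_prop) fun i _ => ?_
  simp only [tm]
  split_ifs
  · exact h0
  · rfl

open Classical in
/-- Sums are invariant under definable permutations. -/
theorem fs_comp {f : I → K} (df : DefF N f) (hf : FinS N f) {σ τ : I → I} (hσ : DefF N σ)
    (hτ : DefF N τ) (h1 : ∀ p, τ (σ p) = p) (h2 : ∀ p, σ (τ p) = p) :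
    fs N (fun p => f (σ p)) = fs N f := by
  obtain ⟨n, e, he, h⟩ := hf
  rw [fs_eq df (intl_fun.1 he) h, fs_eq (f := fun p => f (σ p)) (e := fun i => τ (e i)) (n := n)
    (by fun_prop) (by fun_prop) fun p hp => ?_]
  · refine isum_congr (by fun_prop) (by fun_prop) fun i _ => ?_
    simp only [tm, h2]
    refine if_congr (exists_congr fun j => and_congr_right fun _ => ⟨fun h3 => ?_, fun h3 => ?_⟩)
      rfl rfl
    · rw [← h2 (e j), h3, h2]
    · rw [h3]
  · obtain ⟨i, h3, h4⟩ := h _ hp
    exact ⟨i, h3, by rw [← h1 p, ← h4]⟩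

theorem fs_single {f : I → K} (df : DefF N f) (q : I) (h : ∀ p, f p ≠ 0 → p = q) :
    fs N f = f q := by
  rw [fs_eq df (e := fun _ => q) (n := 1) (by fun_prop)
    fun p hp => ⟨0, zero_lt_one, (h p hp).symm⟩, isum_one (by fun_prop), tm,
    if_neg fun ⟨j, hj, _⟩ => NN.not_lt_zero' j hj]

theorem fs_zero [Nonempty I] {f : I → K} (h : ∀ p, f p = 0) : fs N f = 0 := by
  obtain ⟨q⟩ := ‹Nonempty I›
  rw [fs_single (DefF.congr (DefF.const (0 : K)) fun p _ => (h p).symm) q
    fun p hp => absurd (h p) hp, h]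

/-- A property which holds eventually for each point holds eventually on a finite support. -/
theorem FinS.ev {f : I → K} (hf : FinS N f) {P : I → NN N → Prop}
    (hP : DefF N (fun q : I × NN N => P q.1 q.2)) (h : ∀ p, ∃ n, ∀ k, n ≤ k → P p k) :
    ∃ n, ∀ k, n ≤ k → ∀ p, f p ≠ 0 → P p k := by
  obtain ⟨n, e, he, h1⟩ := hf
  obtain ⟨m, hm⟩ := NN.ind (P := fun n => ∃ m, ∀ k, m ≤ k → ∀ i, i < n → P (e i) k)
    (by fun_prop) ⟨0, fun _ _ i hi => absurd hi (NN.not_lt_zero' i)⟩ (fun n ⟨m, hm⟩ => by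
      obtain ⟨m', hm'⟩ := h (e n)
      exact ⟨max m m', fun k hk i hi => (NN.lt_add_one_cases hi).elim
        (hm k ((le_max_left _ _).trans hk) i) fun e => e ▸ hm' k ((le_max_right _ _).trans hk)⟩) n
  refine ⟨m, fun k hk p hp => ?_⟩
  obtain ⟨i, h2, rfl⟩ := h1 p hp
  exact hm k hk i h2

/-! ### The space of finitely supported functions -/

variable (N K I) in
/-- the finitely supported internal functions -/
def fsub [Nonempty I] : Submodule K (I → K) where
  carrier := {f | Intl N f ∧ FinS N f}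
  zero_mem' := ⟨intl_const (0 : K), 0, fun _ => Classical.arbitrary I, inferInstance,
    fun _ hp => absurd rfl hp⟩
  add_mem' := by
    rintro f g ⟨hf, hf'⟩ ⟨hg, hg'⟩
    exact ⟨DefF.toIntl (f := fun n => f n + g n) (by fun_prop), hf'.add hg'⟩
  smul_mem' := by
    rintro a f ⟨hf, hf'⟩
    exact ⟨DefF.toIntl (f := fun n => a * f n) (by fun_prop),
      hf'.mono fun p hp => right_ne_zero_of_mul hp⟩

variable [Nonempty I]

variable (N K I) in
/-- the space of finitely supported internal functions -/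
def FV : Type _ := fsub N I K

namespace FV

noncomputable instance : AddCommGroup (FV N I K) := inferInstanceAs (AddCommGroup (fsub N I K))
noncomputable instance : Module K (FV N I K) := inferInstanceAs (Module K (fsub N I K))

/-- the underlying function -/
def val (x : FV N I K) : I → K := Subtype.val x

theorem ext {x y : FV N I K} (e : ∀ n, x.val n = y.val n) : x = y := Subtype.ext (funext e)

@[simp] theorem val_add (x y : FV N I K) (n : I) : (x + y).val n = x.val n + y.val n := rfl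
@[simp] theorem val_sub (x y : FV N I K) (n : I) : (x - y).val n = x.val n - y.val n := rfl
@[simp] theorem val_smul (c : K) (x : FV N I K) (n : I) : (c • x).val n = c * x.val n := rfl
@[simp] theorem val_zero (n : I) : (0 : FV N I K).val n = 0 := rfl

instance intl_val (x : FV N I K) : Intl N x.val := x.2.1

theorem fin (x : FV N I K) : FinS N x.val := x.2.2

/-- a finitely supported function as a point -/
def mk (f : I → K) (hf : DefF N f) (h : FinS N f) : FV N I K := Subtype.mk f ⟨hf.toIntl, h⟩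

@[simp] theorem val_mk (f : I → K) (hf : DefF N f) (h : FinS N f) : (mk f hf h).val = f := rfl

noncomputable instance coded : Coded N (FV N I K) where
  Int _ := True
  code x := code N x.val
  inj _ _ e := Subtype.ext (code_inj (intl_val _) (intl_val _) e)
  dom := by
    have h1 : DefF N (fun f : I → K => FinS N f) := by fun_prop
    refine (defP_iff.1 h1).congr fun x => ⟨?_, ?_⟩
    · rintro ⟨f, hf, rfl, hc⟩; exact ⟨mk f (intl_fun.1 hf) hc, trivial, rfl⟩
    · rintro ⟨x, -, rfl⟩; exact ⟨x.val, inferInstance, rfl, x.fin⟩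

instance tot : Tot N (FV N I K) where
  car := by
    have h1 : Intl N {f : I → K | Intl N f ∧ FinS N f} := intl_setOf (by fun_prop)
    refine ⟨code N _, fun x => (mem_code_set h1).trans ⟨?_, ?_⟩⟩
    · rintro ⟨f, ⟨hf, hc⟩, rfl⟩; exact ⟨mk f (intl_fun.1 hf) hc, ⟨trivial⟩, rfl⟩
    · rintro ⟨x, -, rfl⟩; exact ⟨x.val, ⟨inferInstance, x.fin⟩, rfl⟩
  all _ := ⟨trivial⟩

theorem defF_val : DefF N (fun x : FV N I K => x.val) :=
  ⟨fun x _ => intl_val x, (DefF.id (N := N) (α := FV N I K)).2⟩

@[fun_prop] theorem defF_co {f : α → FV N I K} {g : α → I} (hf : DefF N f) (hg : DefF N g) :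
    DefF N (fun a => (f a).val (g a)) := (defF_val.comp hf).ap hg

theorem defF_of {f : α → FV N I K} (H : DefF N (fun p : α × I => (f p.1).val p.2)) :
    DefF N f := ⟨fun _ _ => inferInstance, (DefF.lam (fun a n => (f a).val n) H).2⟩

instance : DefAdd N (FV N I K) := ⟨defF_of (by simp only [val_add]; fun_prop)⟩
instance : DefSMul N K (FV N I K) := ⟨defF_of (by simp only [val_smul]; fun_prop)⟩

/-- weighted permutations -/
noncomputable def wp (w : I → K) (σ τ : I → I) (hw : DefF N w) (hσ : DefF N σ) (hτ : DefF N τ)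
    (h1 : ∀ p, τ (σ p) = p) : FV N I K →ₗ[K] FV N I K where
  toFun x := mk (fun p => w p * x.val (σ p)) (by fun_prop)
    ((x.fin.comp hτ h1).mono fun _ hp => right_ne_zero_of_mul hp)
  map_add' _ _ := ext fun _ => mul_add _ _ _
  map_smul' _ _ := ext fun _ => mul_left_comm _ _ _

@[simp] theorem val_wp (w : I → K) (σ τ : I → I) (hw : DefF N w) (hσ : DefF N σ) (hτ : DefF N τ)
    (h1 : ∀ p, τ (σ p) = p) (x : FV N I K) (p : I) :
    (wp w σ τ hw hσ hτ h1 x).val p = w p * x.val (σ p) := rfl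

end FV

end A

variable {R : Type*} [Field R] [LinearOrder R] [IsStrictOrderedRing R] [Coded N R] [RF N R]
  {K : Type*} [Field K] [Algebra R K] [Nm K R] [KA R K] [Coded N K] [KF N R K]

theorem fs_re_nonneg {f : I → K} (df : DefF N f) (hf : FinS N f) (h : ∀ p, 0 ≤ KA.re (f p)) :
    0 ≤ KA.re (fs N f) := by
  obtain ⟨n, e, he, h1⟩ := hf
  rw [fs_eq df (intl_fun.1 he) h1]
  refine isum_induction (P := fun z : K => 0 ≤ KA.re z) (by fun_prop) (by rw [map_zero])
    (fun x y hx hy => by rw [map_add]; exact add_nonneg hx hy) (by fun_prop) fun i _ => ?_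
  simp only [tm]
  split_ifs
  · rw [map_zero]
  · exact h _

namespace FV

variable [Nonempty I]

/-- the inner product -/
noncomputable def ip (x y : FV N I K) : K := fs N (fun p => KA.conj (x.val p) * y.val p)

theorem fin_ip (x y : FV N I K) : FinS N (fun p => KA.conj (x.val p) * y.val p) :=
  y.fin.mono fun _ hp => right_ne_zero_of_mul hp

@[fun_prop] theorem defF_ip {f g : α → FV N I K} (hf : DefF N f) (hg : DefF N g) :
    DefF N (fun a => ip (f a) (g a)) := by
  unfold ip; fun_prop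

theorem ip_add (x y z : FV N I K) : ip x (y + z) = ip x y + ip x z := by
  simp only [ip, val_add, mul_add]
  exact fs_add (by fun_prop) (by fun_prop) (fin_ip x y) (fin_ip x z)

theorem ip_smul (c : K) (x y : FV N I K) : ip x (c • y) = c * ip x y := by
  rw [ip, ip, map_fs (φ := fun z => c * z) (by fun_prop) (mul_zero c) (mul_add c) (by fun_prop)
    (fin_ip x y)]
  simp only [val_smul, mul_left_comm]

theorem conj_ip (x y : FV N I K) : KA.conj (ip x y) = ip y x := by
  rw [ip, ip, map_fs (φ := fun z => KA.conj z) (by fun_prop) (map_zero _) (map_add _)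
    (by fun_prop) (fin_ip x y)]
  simp only [map_mul, KA.conj_conj, mul_comm]

theorem re_ip_nonneg (x : FV N I K) : 0 ≤ KA.re (ip x x) :=
  fs_re_nonneg (by fun_prop) (fin_ip x x) fun p => by
    rw [KA.conj_mul_self, KA.re_ofR]; exact sq_nonneg _

theorem ip_eq_zero {x y : FV N I K} (h : ∀ p, x.val p ≠ 0 → y.val p = 0) : ip x y = 0 :=
  fs_zero fun p => by
    by_cases h0 : x.val p = 0
    · rw [h0, map_zero, zero_mul]
    · rw [h p h0, mul_zero]

/-- the adjoint of a weighted permutation -/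
theorem ip_wp {w w' : I → K} {σ τ : I → I} (hw : DefF N w) (hw' : DefF N w') (hσ : DefF N σ)
    (hτ : DefF N τ) (h1 : ∀ p, τ (σ p) = p) (h2 : ∀ p, σ (τ p) = p)
    (h3 : ∀ p, w' (σ p) = KA.conj (w p)) (x y : FV N I K) :
    ip (wp w σ τ hw hσ hτ h1 x) y = ip x (wp w' τ σ hw' hτ hσ h2 y) := by
  rw [ip, ip, ← fs_comp (by fun_prop) (fin_ip x (wp w' τ σ hw' hτ hσ h2 y)) hσ hτ h1 h2]
  simp only [val_wp, h1, h3, map_mul, mul_assoc, mul_left_comm]

open Classical in
theorem exists_ip_eq_one : ∃ x : FV N I K, ip x x = 1 := by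
  obtain ⟨q⟩ := ‹Nonempty I›
  have h : ∀ p, (if p = q then (1 : K) else 0) ≠ 0 → p = q := fun p hp => by
    by_contra hc
    exact hp (if_neg hc)
  have h1 : FinS N (fun p => if p = q then (1 : K) else 0) :=
    ⟨1, fun _ => q, inferInstance, fun p hp => ⟨0, zero_lt_one, (h p hp).symm⟩⟩
  refine ⟨mk (fun p => if p = q then 1 else 0) (by fun_prop) h1, ?_⟩
  refine (fs_single (by fun_prop) q fun p hp => h p (right_ne_zero_of_mul hp)).trans ?_
  simp

end FV

end M98

end Vale.Agent.P129B
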