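import Vale.Agent.P070ZM.Fs
import Vale.Agent.P070ZC.Inst

/-!
# The operators of the model on finitely supported functions
-/

set_option linter.all false

namespace Vale.Agent.P129B

universe v

variable {N : Type v} [ZM N] {α : Type*} [Coded N α]

namespace M98

/-- bounded sets of natural numbers -/
def BdS (S : Set (NN N)) : Prop := ∃ n, ∀ k, n ≤ k → k ∉ S

instance : Fact (DefF N (BdS (N := N))) := ⟨by unfold BdS; fun_prop⟩

variable (N) in
/-- the bounded internal sets of natural numbers -/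
abbrev BS : Type v := St N (BdS (N := N))

/-- the empty set -/
def BS.emp : BS N := ⟨∅, inferInstance, 0, fun _ _ h => h⟩

instance : Nonempty (BS N) := ⟨BS.emp⟩

/-- the symmetric difference with a point -/
def flp (i : NN N) (S : BS N) : BS N :=
  ⟨{j | ¬ (j ∈ S.1 ↔ j = i)}, intl_setOfT (by fun_prop), by
    obtain ⟨n, hn⟩ := S.2.2
    exact ⟨max n (i + 1), fun k hk h => h (iff_of_false (hn k ((le_max_left _ _).trans hk))
      (NN.add_one_le_iff.1 ((le_max_right _ _).trans hk)).ne')⟩⟩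

theorem mem_flp {i j : NN N} {S : BS N} : j ∈ (flp i S).1 ↔ ¬ (j ∈ S.1 ↔ j = i) := Iff.rfl

@[simp] theorem flp_flp (i : NN N) (S : BS N) : flp i (flp i S) = S :=
  Subtype.ext (Set.ext fun j => by simp only [mem_flp]; tauto)

theorem flp_comm (i j : NN N) (S : BS N) : flp i (flp j S) = flp j (flp i S) :=
  Subtype.ext (Set.ext fun k => by simp only [mem_flp]; tauto)

@[fun_prop] theorem defF_flp {f : α → NN N} {g : α → BS N} (hf : DefF N f) (hg : DefF N g) :
    DefF N (fun a => flp (f a) (g a)) :=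
  defF_st (DefF.setOfT (P := fun a j => ¬ (j ∈ (g a).1 ↔ j = f a)) (by fun_prop))

open Classical in
/-- the sign -/
noncomputable def sg (K : Type*) [Field K] (i : NN N) (S : BS N) : K := if i ∈ S.1 then -1 else 1

@[fun_prop] theorem defF_sg {K : Type*} [Field K] [Coded N K] [Tot N K] {f : α → NN N}
    {g : α → BS N} (hf : DefF N f) (hg : DefF N g) : DefF N (fun a => sg K (f a) (g a)) := by
  unfold sg; fun_prop

variable {R : Type*} [Field R] [LinearOrder R] [IsStrictOrderedRing R] [Coded N R] [RF N R]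
  {K : Type*} [Field K] [Algebra R K] [Nm K R] [KA R K] [Coded N K] [KF N R K]

theorem sg_mul_self (i : NN N) (S : BS N) : sg K i S * sg K i S = 1 := by
  unfold sg; split_ifs <;> simp

@[simp] theorem conj_sg (i : NN N) (S : BS N) : KA.conj (sg K i S) = sg K i S := by
  unfold sg; split_ifs <;> simp

@[simp] theorem sg_flp_self (i : NN N) (S : BS N) : sg K i (flp i S) = -sg K i S := by
  unfold sg
  by_cases h : i ∈ S.1
  · rw [if_pos h, if_neg (fun k => mem_flp.1 k (iff_of_true h rfl)), neg_neg]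
  · rw [if_neg h, if_pos (mem_flp.2 fun k => h (k.2 rfl))]

theorem sg_flp_ne {i j : NN N} (hij : i ≠ j) (S : BS N) : sg K i (flp j S) = sg K i S := by
  unfold sg
  by_cases h : i ∈ S.1
  · rw [if_pos h, if_pos (mem_flp.2 fun k => hij (k.1 h))]
  · rw [if_neg h, if_neg (fun k => mem_flp.1 k (iff_of_false h hij))]

variable (N R K) in
/-- the finitely supported functions on the index set -/
abbrev VM : Type _ := FV N (R × BS N) K

variable (N R K) in
/-- the inner product on it -/
noncomputable def pre : PreH N K (VM N R K) where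
  ip := FV.ip
  defIp := by fun_prop
  add := FV.ip_add
  smul := FV.ip_smul
  conj := FV.conj_ip
  pos := FV.re_ip_nonneg

/-- shifts with a weight -/
noncomputable def w1 (w : R × BS N → K) (hw : DefF N w) (r : R) : VM N R K →ₗ[K] VM N R K :=
  FV.wp w (fun p => (p.1 - r, p.2)) (fun p => (p.1 - -r, p.2)) hw (by fun_prop) (by fun_prop)
    fun p => by simp

/-- shifts and flips with a weight -/
noncomputable def w2 (w : R × BS N → K) (hw : DefF N w) (r : R) (i : NN N) :
    VM N R K →ₗ[K] VM N R K :=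
  FV.wp w (fun p => (p.1 - r, flp i p.2)) (fun p => (p.1 - -r, flp i p.2)) hw (by fun_prop)
    (by fun_prop) fun p => by simp

theorem val_w1 (w : R × BS N → K) (hw : DefF N w) (r : R) (x : VM N R K) (p : R × BS N) :
    (w1 w hw r x).val p = w p * x.val (p.1 - r, p.2) := rfl

theorem val_w2 (w : R × BS N → K) (hw : DefF N w) (r : R) (i : NN N) (x : VM N R K)
    (p : R × BS N) : (w2 w hw r i x).val p = w p * x.val (p.1 - r, flp i p.2) := rfl

theorem ip_w1 {w w' : R × BS N → K} (hw : DefF N w) (hw' : DefF N w') (r : R)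
    (h : ∀ p : R × BS N, w' (p.1 - r, p.2) = KA.conj (w p)) (x y : VM N R K) :
    FV.ip (w1 w hw r x) y = FV.ip x (w1 w' hw' (-r) y) :=
  FV.ip_wp (σ := fun p : R × BS N => (p.1 - r, p.2)) (τ := fun p => (p.1 - -r, p.2)) hw hw'
    (by fun_prop) (by fun_prop) (fun p => by simp) (fun p => by simp) h x y

theorem ip_w2 {w w' : R × BS N → K} (hw : DefF N w) (hw' : DefF N w') (r : R) (i : NN N)
    (h : ∀ p : R × BS N, w' (p.1 - r, flp i p.2) = KA.conj (w p)) (x y : VM N R K) :
    FV.ip (w2 w hw r i x) y = FV.ip x (w2 w' hw' (-r) i y) :=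
  FV.ip_wp (σ := fun p : R × BS N => (p.1 - r, flp i p.2))
    (τ := fun p => (p.1 - -r, flp i p.2)) hw hw'
    (by fun_prop) (by fun_prop) (fun p => by simp) (fun p => by simp) h x y

/-- the shift -/
noncomputable def sh (r : R) : VM N R K →ₗ[K] VM N R K := w1 (fun _ => 1) (by fun_prop) r

/-- one half -/
noncomputable abbrev hf (R K : Type*) [Field R] [Field K] [Algebra R K] : K := algebraMap R K 2⁻¹

/-- the generators -/
noncomputable def opA (i : NN N) : VM N R K →ₗ[K] VM N R K :=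
  hf R K • (w1 (fun p => sg K i p.2) (by fun_prop) 1 - w2 (fun p => sg K i p.2) (by fun_prop) 1 i)

/-- their adjoints -/
noncomputable def opB (i : NN N) : VM N R K →ₗ[K] VM N R K :=
  hf R K • (w1 (fun p => sg K i p.2) (by fun_prop) (-1) -
    w2 (fun p => -sg K i p.2) (by fun_prop) (-1) i)

theorem val_sh (r : R) (x : VM N R K) (m : R) (S : BS N) :
    (sh r x).val (m, S) = x.val (m - r, S) := one_mul _

theorem val_A (i : NN N) (x : VM N R K) (m : R) (S : BS N) : (opA i x).val (m, S) =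
    hf R K * (sg K i S * x.val (m - 1, S) - sg K i S * x.val (m - 1, flp i S)) := rfl

theorem val_B (i : NN N) (x : VM N R K) (m : R) (S : BS N) : (opB i x).val (m, S) =
    hf R K * (sg K i S * x.val (m + 1, S) + sg K i S * x.val (m + 1, flp i S)) := by
  show hf R K * (sg K i S * x.val (m - -1, S) - -sg K i S * x.val (m - -1, flp i S)) = _
  rw [sub_neg_eq_add, neg_mul, sub_neg_eq_add]

theorem two_hf : 2 * hf R K = 1 := by
  rw [← map_ofNat (algebraMap R K) 2, ← map_mul, mul_inv_cancel₀ two_ne_zero, map_one]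

theorem ip_sh (r : R) (x y : VM N R K) : FV.ip (sh r x) y = FV.ip x (sh (-r) y) :=
  ip_w1 _ _ r (fun _ => (map_one _).symm) x y

theorem ip_A (i : NN N) (x y : VM N R K) : FV.ip (opA i x) y = FV.ip x (opB i y) := by
  have h := (pre N R K).sip
  refine (h.smul_left _ _ _).trans (Eq.trans ?_ (h.smul _ _ _).symm)
  rw [KA.conj_ofR]
  refine congrArg _ ((h.sub_left _ _ _).trans (Eq.trans ?_ (h.sub _ _ _).symm))
  exact congrArg₂ _ (ip_w1 _ _ 1 (fun _ => (conj_sg _ _).symm) x y)
    (ip_w2 _ _ 1 i (fun _ => by simp) x y)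

theorem ip_B (i : NN N) (x y : VM N R K) : FV.ip (opB i x) y = FV.ip x (opA i y) := by
  rw [← FV.conj_ip, ← ip_A, FV.conj_ip]

theorem sh_sh (r s : R) (x : VM N R K) : sh r (sh s x) = sh (r + s) x :=
  FV.ext fun ⟨m, S⟩ => by simp only [val_sh, sub_sub]

theorem sh_zero (x : VM N R K) : sh (0 : R) x = x :=
  FV.ext fun ⟨m, S⟩ => by simp only [val_sh, sub_zero]

theorem A_sq (i : NN N) (x : VM N R K) : opA i (opA i x) = 0 := FV.ext fun ⟨m, S⟩ => by
  simp only [val_A, sg_flp_self, flp_flp, FV.val_zero]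
  ring

theorem A_car (i : NN N) (x : VM N R K) : opA i (opB i x) + opB i (opA i x) = x :=
  FV.ext fun ⟨m, S⟩ => by
    simp only [FV.val_add, val_A, val_B, sg_flp_self, flp_flp, sub_add_cancel,
      add_sub_cancel_right]
    linear_combination (4 * hf R K ^ 2 * x.val (m, S)) * sg_mul_self (K := K) i S +
      ((2 * hf R K + 1) * x.val (m, S)) * two_hf (R := R) (K := K)

theorem A_comm {i j : NN N} (h : i ≠ j) (x : VM N R K) : opA i (opA j x) = opA j (opA i x) :=
  FV.ext fun ⟨m, S⟩ => by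
    simp only [val_A, sg_flp_ne h, sg_flp_ne h.symm, flp_comm j i]
    ring

theorem AB_comm {i j : NN N} (h : i ≠ j) (x : VM N R K) : opA i (opB j x) = opB j (opA i x) :=
  FV.ext fun ⟨m, S⟩ => by
    simp only [val_A, val_B, sg_flp_ne h, sg_flp_ne h.symm, flp_comm j i, sub_add_cancel,
      add_sub_cancel_right]
    ring

theorem shA_comm (r : R) (i : NN N) (x : VM N R K) : sh r (opA i x) = opA i (sh r x) :=
  FV.ext fun ⟨m, S⟩ => by simp only [val_A, val_sh, sub_right_comm m r]

theorem shB_comm (r : R) (i : NN N) (x : VM N R K) : sh r (opB i x) = opB i (sh r x) :=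
  FV.ext fun ⟨m, S⟩ => by simp only [val_B, val_sh, sub_add_eq_add_sub]

theorem s_sh (r : R) (x : VM N R K) : (pre N R K).s (sh r x) = (pre N R K).s x := by
  show rsqrt (KA.re (FV.ip _ _)) = rsqrt (KA.re (FV.ip _ _))
  rw [ip_sh, sh_sh, neg_add_cancel, sh_zero]

theorem s_AB (i : NN N) (x : VM N R K) :
    (pre N R K).s (opB i x) ^ 2 + (pre N R K).s (opA i x) ^ 2 = (pre N R K).s x ^ 2 := by
  have h := (pre N R K).sip
  rw [h.sq, h.sq, h.sq, ← map_add]
  show KA.re (FV.ip _ _ + FV.ip _ _) = KA.re (FV.ip _ _)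
  rw [ip_B, ip_A, ← FV.ip_add, A_car]

theorem adj_sh (r : R) : Adj (pre N R K) (pre N R K) (sh r) (sh (-r)) (1 : R) where
  defF := FV.defF_of (by simp only [sh, val_w1]; fun_prop)
  adj w x := by
    have := ip_sh (-r) w x
    rw [neg_neg] at this
    exact this.symm
  nonneg := zero_le_one
  bd w := by rw [s_sh, one_mul]

@[fun_prop] theorem defF_sh {f : α → R} {g : α → VM N R K} (h1 : DefF N f) (h2 : DefF N g) :
    DefF N (fun a => sh (f a) (g a)) := FV.defF_of (by simp only [sh, val_w1]; fun_prop)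

@[fun_prop] theorem defF_A {f : α → NN N} {g : α → VM N R K} (h1 : DefF N f) (h2 : DefF N g) :
    DefF N (fun a => opA (f a) (g a)) :=
  FV.defF_of (DefF.congr (f := fun p : α × R × BS N => hf R K * (sg K (f p.1) p.2.2 *
    (g p.1).val (p.2.1 - 1, p.2.2) - sg K (f p.1) p.2.2 *
      (g p.1).val (p.2.1 - 1, flp (f p.1) p.2.2))) (by fun_prop) fun _ _ => rfl)

@[fun_prop] theorem defF_B {f : α → NN N} {g : α → VM N R K} (h1 : DefF N f) (h2 : DefF N g) :
    DefF N (fun a => opB (f a) (g a)) :=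
  FV.defF_of (DefF.congr (f := fun p : α × R × BS N => hf R K * (sg K (f p.1) p.2.2 *
    (g p.1).val (p.2.1 + 1, p.2.2) + sg K (f p.1) p.2.2 *
      (g p.1).val (p.2.1 + 1, flp (f p.1) p.2.2))) (by fun_prop)
    fun p _ => (val_B _ _ p.2.1 p.2.2).symm)

theorem adj_A (i : NN N) : Adj (pre N R K) (pre N R K) (opA i) (opB i) (1 : R) where
  defF := by fun_prop
  adj w x := (ip_B i w x).symm
  nonneg := zero_le_one
  bd w := by
    rw [one_mul]
    exact le_of_sq_le_sq (by nlinarith [s_AB i w, sq_nonneg ((pre N R K).s (opA i w))])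
      ((pre N R K).sip.nonneg w)

theorem adj_B (i : NN N) : Adj (pre N R K) (pre N R K) (opB i) (opA i) (1 : R) where
  defF := by fun_prop
  adj w x := (ip_A i w x).symm
  nonneg := zero_le_one
  bd w := by
    rw [one_mul]
    exact le_of_sq_le_sq (by nlinarith [s_AB i w, sq_nonneg ((pre N R K).s (opB i w))])
      ((pre N R K).sip.nonneg w)

theorem ev_notMem (x : VM N R K) : ∃ n, ∀ k, n ≤ k → ∀ p, x.val p ≠ 0 → k ∉ p.2.1 :=
  x.fin.ev (P := fun p k => k ∉ p.2.1) (by fun_prop) fun p => p.2.2.2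

theorem ev_abs (x : VM N R K) : ∃ n : NN N, ∀ p, x.val p ≠ 0 → |p.1| < rc R n := by
  obtain ⟨n, hn⟩ := x.fin.ev (P := fun p k => |p.1| < rc R k) (by fun_prop) fun p => by
    obtain ⟨n, hn⟩ := exists_rc_gt N |p.1|
    exact ⟨n, fun k hk => hn.trans_le (rc_le.2 hk)⟩
  exact ⟨n, hn n le_rfl⟩

/-- The generators tend weakly to half the shift. -/
theorem ev_A (x y : VM N R K) :
    ∃ n, ∀ k, n ≤ k → FV.ip y (opA k x - hf R K • sh (1 : R) x) = 0 := by
  obtain ⟨n, hn⟩ := ev_notMem x
  obtain ⟨m, hm⟩ := ev_notMem y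
  refine ⟨max n m, fun k hk => FV.ip_eq_zero fun ⟨t, S⟩ hp => ?_⟩
  have h1 : k ∉ S.1 := hm k ((le_max_right _ _).trans hk) _ hp
  have h2 : x.val (t - 1, flp k S) = 0 := by
    by_contra h
    exact hn k ((le_max_left _ _).trans hk) _ h (mem_flp.2 fun e => h1 (e.2 rfl))
  rw [FV.val_sub, FV.val_smul, val_A, val_sh, h2, sg, if_neg h1]
  ring

/-- The shifts tend weakly to zero. -/
theorem ev_sh (x y : VM N R K) : ∃ n : NN N, ∀ k, n ≤ k → FV.ip y (sh (rc R k) x) = 0 := by
  obtain ⟨n, hn⟩ := ev_abs x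
  obtain ⟨m, hm⟩ := ev_abs y
  refine ⟨n + m, fun k hk => FV.ip_eq_zero fun ⟨t, S⟩ hp => ?_⟩
  rw [val_sh]
  by_contra h
  have h1 := abs_lt.1 (hn _ h)
  have h2 := abs_lt.1 (hm _ hp)
  have h3 : rc R (n + m) ≤ rc R k := rc_le.2 hk
  rw [rc_add] at h3
  linarith [h1.1, h2.2]

end M98

end Vale.Agent.P129B
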